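import Vale.Agent.Lib.P327.Main

/-!
# P327, Q1: the Turing degrees, as equivalence classes of subsets of `ℕ`, are rigid
-/

namespace Vale.Agent.Results.P327.DegreesAsClasses

open Vale.Agent.P327

open Classical in
/-- For `A, B ⊆ ℕ`, `A ≤_T B` means that some oracle Turing machine with oracle `B` computes the
characteristic function of `A`: Mathlib's `TuringReducible` for the two characteristic
functions. -/
def ReducibleTo (A B : Set ℕ) : Prop :=
  TuringReducible (fun n => Part.some (if n ∈ A then 1 else 0))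
    (fun n => Part.some (if n ∈ B then 1 else 0))

/-- Sets with `A ≤_T B` and `B ≤_T A` are Turing equivalent; the equivalence classes of all subsets
of `ℕ` are the Turing degrees: a degree is a family of the form `{B | B ≡_T A}`. -/
def Degree : Type :=
  {a : Set (Set ℕ) // ∃ A : Set ℕ, a = {B | ReducibleTo B A ∧ ReducibleTo A B}}

/-- The partial order of the degrees: `a ≤_T b` if each set in the class `a` is reducible to each
set in the class `b`. -/
def Degree.Below (a b : Degree) : Prop :=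
  ∀ A ∈ a.1, ∀ B ∈ b.1, ReducibleTo A B

open Classical in
/-- the real attached to a set -/
noncomputable def rs (A : Set ℕ) : R := fun n => if n ∈ A then 1 else 0

theorem rs_le {A B : Set ℕ} : TLE (rs A) (rs B) ↔ ReducibleTo A B := by
  classical
  change Nat.RecursiveIn {fun n => Part.some (rs B n)} (fun n => Part.some (rs A n)) ↔
    RecursiveIn {fun n => Part.some (rs B n)} (fun n => Part.some (rs A n))
  exact RecursiveIn.iff_nat.symm

/-- a set of the degree of `a` -/
theorem exists_set (a : R) : ∃ A : Set ℕ, TEq (rs A) a := by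
  obtain ⟨Z, hZ⟩ := exists_bit a
  refine ⟨{n | Z n = true}, ?_⟩
  have h : rs {n | Z n = true} = bit Z := by
    funext n
    unfold rs bit
    by_cases h : Z n = true <;> simp [h]
  rw [h]
  exact hZ

/-- the real of a map on sets -/
theorem tle_congr {a a' b b' : R} (ha : TEq a a') (hb : TEq b b') (h : TLE a b) : TLE a' b' :=
  (ha.2.trans h).trans hb.1


theorem set_maps (F : Set ℕ → Set ℕ) (hF : ∀ A B : Set ℕ, ReducibleTo A B ↔ ReducibleTo (F A) (F B))
    (honto : ∀ B : Set ℕ, ∃ A : Set ℕ, ReducibleTo (F A) B ∧ ReducibleTo B (F A)) (A : Set ℕ) :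
    ReducibleTo (F A) A ∧ ReducibleTo A (F A) := by
  choose G hG1 hG2 using honto
  choose S hS using exists_set
  have hFG : ∀ B, TEq (rs (F (G B))) (rs B) := fun B => ⟨rs_le.2 (hG1 B), rs_le.2 (hG2 B)⟩
  have hFr : ∀ A B : Set ℕ, TLE (rs A) (rs B) ↔ TLE (rs (F A)) (rs (F B)) := fun A B => by
    rw [rs_le, rs_le]
    exact hF A B
  have hSF : ∀ a b : R, TLE a b ↔ TLE (rs (S a)) (rs (S b)) := fun a b =>
    ⟨fun h => ((hS a).1.trans h).trans (hS b).2, fun h => ((hS a).2.trans h).trans (hS b).1⟩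
  have hGr : ∀ B B' : Set ℕ, TLE (rs B) (rs B') ↔ TLE (rs (G B)) (rs (G B')) := fun B B' => by
    rw [hFr (G B) (G B')]
    exact ⟨fun h => ((hFG B).1.trans h).trans (hFG B').2,
      fun h => ((hFG B).2.trans h).trans (hFG B').1⟩
  have key : ∀ {a b : R}, TEq a b → TEq b a := fun h => ⟨h.2, h.1⟩
  have hGF : ∀ A, TEq (rs (G (F A))) (rs A) := fun A =>
    ⟨(hFr _ _).2 (hFG (F A)).1, (hFr _ _).2 (hFG (F A)).2⟩
  have hGc : ∀ {B B' : Set ℕ}, TEq (rs B) (rs B') → TEq (rs (G B)) (rs (G B')) := fun h =>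
    ⟨(hGr _ _).1 h.1, (hGr _ _).1 h.2⟩
  have hFc : ∀ {B B' : Set ℕ}, TEq (rs B) (rs B') → TEq (rs (F B)) (rs (F B')) := fun h =>
    ⟨(hFr _ _).1 h.1, (hFr _ _).1 h.2⟩
  have tr : ∀ {a b c : R}, TEq a b → TEq b c → TEq a c := fun h h' =>
    ⟨h.1.trans h'.1, h'.2.trans h.2⟩
  let π : Auto :=
    { f := fun a => rs (F (S a))
      g := fun a => rs (G (S a))
      hf := fun a b => (hSF a b).trans (hFr _ _)
      hg := fun a b => (hSF a b).trans (hGr _ _)
      fg := fun a => tr (hFc (hS (rs (G (S a))))) (tr (hFG (S a)) (hS a))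
      gf := fun a => tr (hGc (hS (rs (F (S a))))) (tr (hGF (S a)) (hS a)) }
  have h1 : TEq (rs (F (S (rs A)))) (rs A) := rigid π (rs A)
  have h2 : TEq (rs (F A)) (rs A) := tr (key (hFc (hS (rs A)))) h1
  exact ⟨rs_le.1 h2.1, rs_le.1 h2.2⟩


theorem red_trans {A B C : Set ℕ} (h : ReducibleTo A B) (h' : ReducibleTo B C) :
    ReducibleTo A C :=
  TuringReducible.trans h h'

/-- the degree of a set -/
def cls (A : Set ℕ) : Degree := ⟨{B | ReducibleTo B A ∧ ReducibleTo A B}, A, rfl⟩

theorem mem_cls (A : Set ℕ) : A ∈ (cls A).1 :=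
  ⟨TuringReducible.refl _, TuringReducible.refl _⟩

theorem below_cls (A B : Set ℕ) : Degree.Below (cls A) (cls B) ↔ ReducibleTo A B := by
  constructor
  · exact fun h => h A (mem_cls A) B (mem_cls B)
  · rintro h A' ⟨h1, -⟩ B' ⟨-, h2⟩
    exact red_trans (red_trans h1 h) h2

theorem cls_eq {A B : Set ℕ} (h1 : ReducibleTo A B) (h2 : ReducibleTo B A) : cls A = cls B := by
  apply Subtype.ext
  ext C
  exact ⟨fun ⟨h, h'⟩ => ⟨red_trans h h1, red_trans h2 h'⟩,
    fun ⟨h, h'⟩ => ⟨red_trans h h2, red_trans h1 h'⟩⟩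

/-- a member of a degree -/
noncomputable def rep (a : Degree) : Set ℕ := a.2.choose

theorem cls_rep (a : Degree) : cls (rep a) = a := by
  apply Subtype.ext
  exact a.2.choose_spec.symm

theorem rep_cls (A : Set ℕ) : ReducibleTo (rep (cls A)) A ∧ ReducibleTo A (rep (cls A)) := by
  have h : rep (cls A) ∈ (cls (rep (cls A))).1 := mem_cls _
  rw [cls_rep] at h
  exact h

/-- Every automorphism of `(𝒟_T, ≤_T)` is the identity: a bijection `π` of the set of the Turing
degrees with `a ≤_T b ↔ π a ≤_T π b` for all degrees `a, b` satisfies `π = id`. -/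
theorem result (π : Degree → Degree) (hbij : Function.Bijective π)
    (hπ : ∀ a b : Degree, Degree.Below a b ↔ Degree.Below (π a) (π b)) : π = id := by
  have e : ∀ A : Set ℕ, cls (rep (π (cls A))) = π (cls A) := fun A => cls_rep _
  have hF : ∀ A B : Set ℕ, ReducibleTo A B ↔
      ReducibleTo (rep (π (cls A))) (rep (π (cls B))) := by
    intro A B
    rw [← below_cls, hπ, ← below_cls (rep (π (cls A))), e, e]
  have honto : ∀ B : Set ℕ, ∃ A : Set ℕ,
      ReducibleTo (rep (π (cls A))) B ∧ ReducibleTo B (rep (π (cls A))) := by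
    intro B
    obtain ⟨a, ha⟩ := hbij.2 (cls B)
    refine ⟨rep a, ?_⟩
    rw [cls_rep, ha]
    exact rep_cls B
  funext a
  have h := set_maps (fun A => rep (π (cls A))) hF honto (rep a)
  have h2 := cls_eq h.1 h.2
  change cls (rep (π (cls (rep a)))) = cls (rep a) at h2
  rw [cls_rep, cls_rep] at h2
  exact h2

end Vale.Agent.Results.P327.DegreesAsClasses
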