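import Vale.Agent.Lib.P327.Main

/-!
# P327, Q1: the Turing degrees are rigid

Every automorphism of the partial order of the Turing degrees is the identity.
The degrees are the classes of the subsets of `ℕ` under Turing equivalence; reducibility is
Mathlib's `TuringReducible` applied to characteristic functions.
-/

namespace Vale.Agent.Results.P327.Rigid

open Vale.Agent.P327

open Classical in
/-- the characteristic function of a set of natural numbers (total, written as a partial
function because Mathlib's `TuringReducible` compares partial functions) -/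
noncomputable def chi (A : Set ℕ) : ℕ →. ℕ := fun n => Part.some (if n ∈ A then 1 else 0)

/-- subsets of `ℕ`, wrapped so that they do not carry the inclusion order -/
structure NSet where
  /-- the subset -/
  carrier : Set ℕ

/-- Turing reducibility as a preorder on the subsets of `ℕ`: `A ≤ B` iff the characteristic
function of `A` is computable with the characteristic function of `B` as oracle -/
instance instPreorderNSet : Preorder NSet where
  le A B := TuringReducible (chi A.carrier) (chi B.carrier)
  le_refl A := TuringReducible.refl (chi A.carrier)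
  le_trans _ _ _ h1 h2 := TuringReducible.trans h1 h2

/-- the partial order of the Turing degrees: subsets of `ℕ` modulo Turing equivalence -/
abbrev TDeg : Type := Antisymmetrization NSet (· ≤ ·)

open Classical in
/-- the real attached to a set -/
noncomputable def rs (A : NSet) : R := fun n => if n ∈ A.carrier then 1 else 0

theorem rs_le {A B : NSet} : TLE (rs A) (rs B) ↔ A ≤ B := by
  change Nat.RecursiveIn {chi B.carrier} (chi A.carrier) ↔ RecursiveIn {chi B.carrier} (chi A.carrier)
  exact RecursiveIn.iff_nat.symm

/-- a set of the degree of `a` -/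
theorem exists_set (a : R) : ∃ A : NSet, TEq (rs A) a := by
  obtain ⟨Z, hZ⟩ := exists_bit a
  refine ⟨⟨{n | Z n = true}⟩, ?_⟩
  have h : rs ⟨{n | Z n = true}⟩ = bit Z := by
    funext n
    unfold rs bit
    by_cases h : Z n = true <;> simp [h]
  rw [h]
  exact hZ

/-- the degree of a real -/
noncomputable def dg (a : R) : TDeg := toAntisymmetrization (· ≤ ·) (exists_set a).choose

/-- a real of a given degree -/
noncomputable def rep (d : TDeg) : R := rs (ofAntisymmetrization (· ≤ ·) d)

theorem tle_rep {d e : TDeg} : TLE (rep d) (rep e) ↔ d ≤ e := by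
  unfold rep
  rw [rs_le, ofAntisymmetrization_le_ofAntisymmetrization_iff]

theorem rep_dg (a : R) : TEq (rep (dg a)) a := by
  have h1 := (exists_set a).choose_spec
  set A := (exists_set a).choose with hA
  have h2 : AntisymmRel (· ≤ ·) (ofAntisymmetrization (· ≤ ·) (toAntisymmetrization (· ≤ ·) A)) A := by
    rw [← AntisymmRel.setoid_r]
    exact Quotient.exact (by
      change toAntisymmetrization (· ≤ ·) _ = toAntisymmetrization (· ≤ ·) A
      exact toAntisymmetrization_ofAntisymmetrization (· ≤ ·) _)
  exact TEq.trans ⟨rs_le.mpr h2.1, rs_le.mpr h2.2⟩ h1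

theorem dg_le {a b : R} : dg a ≤ dg b ↔ TLE a b := by
  rw [← tle_rep]
  exact ⟨fun h => ((rep_dg a).2.trans h).trans (rep_dg b).1,
    fun h => ((rep_dg a).1.trans h).trans (rep_dg b).2⟩

theorem dg_rep (d : TDeg) : dg (rep d) = d :=
  le_antisymm (tle_rep.mp (rep_dg (rep d)).1) (tle_rep.mp (rep_dg (rep d)).2)

/-- the automorphism on representatives -/
noncomputable def toAuto (π : TDeg ≃o TDeg) : Auto where
  f a := rep (π (dg a))
  g a := rep (π.symm (dg a))
  hf a b := by rw [tle_rep, π.le_iff_le, dg_le]
  hg a b := by rw [tle_rep, π.symm.le_iff_le, dg_le]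
  fg a := by
    rw [dg_rep, OrderIso.apply_symm_apply]
    exact rep_dg a
  gf a := by
    rw [dg_rep, OrderIso.symm_apply_apply]
    exact rep_dg a

/-- Rigidity of the Turing degrees: every automorphism is the identity. -/
theorem result (π : TDeg ≃o TDeg) (d : TDeg) : π d = d := by
  have h := rigid (toAuto π) (rep d)
  change TEq (rep (π (dg (rep d)))) (rep d) at h
  rw [dg_rep] at h
  exact le_antisymm (tle_rep.mp h.1) (tle_rep.mp h.2)

end Vale.Agent.Results.P327.Rigid
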