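import Vale.Agent.Lib.P327.Main

/-!
# P327, Q1 in terms of sets: a map on sets of natural numbers which preserves and reflects Turing
reducibility, and is onto up to Turing equivalence, maps every set to a Turing equivalent set
-/

namespace Vale.Agent.Results.P327.SetMaps

open Vale.Agent.P327

open Classical in
/-- `A ≤_T B`: the characteristic function of `A` is recursive in the characteristic function of
`B` (Mathlib's `TuringReducible`) -/
def Red (A B : Set ℕ) : Prop :=
  TuringReducible (fun n => Part.some (if n ∈ A then 1 else 0))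
    (fun n => Part.some (if n ∈ B then 1 else 0))

open Classical in
/-- the real attached to a set -/
noncomputable def rs (A : Set ℕ) : R := fun n => if n ∈ A then 1 else 0

theorem rs_le {A B : Set ℕ} : TLE (rs A) (rs B) ↔ Red A B := by
  classical
  change Nat.RecursiveIn {fun n => Part.some (rs B n)} (fun n => Part.some (rs A n)) ↔
    RecursiveIn {fun n => Part.some (rs B n)} (fun n => Part.some (rs A n))
  exact RecursiveIn.iff_nat.symm

/-- a set of the degree of `a` -/
theorem exists_set (a : R) : ∃ A : Set ℕ, TEq (rs A) a := by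
  obtain ⟨Z, hZ⟩ := exists_bit a
  refine ⟨{n | Z n = true}, ?_⟩
  have h : rs {n | Z n = true} = bit Z := by
    funext n
    unfold rs bit
    by_cases h : Z n = true <;> simp [h]
  rw [h]
  exact hZ

/-- the real of a map on sets -/
theorem tle_congr {a a' b b' : R} (ha : TEq a a') (hb : TEq b b') (h : TLE a b) : TLE a' b' :=
  (ha.2.trans h).trans hb.1

/-- Rigidity of the Turing degrees: let `F` be a map on the sets of natural numbers with
`A ≤_T B` iff `F A ≤_T F B`, such that every set is Turing equivalent to some `F A` (that is, `F`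
induces an automorphism of the Turing degrees).  Then `F A` is Turing equivalent to `A` for all
`A`. -/
theorem result (F : Set ℕ → Set ℕ) (hF : ∀ A B : Set ℕ, Red A B ↔ Red (F A) (F B))
    (honto : ∀ B : Set ℕ, ∃ A : Set ℕ, Red (F A) B ∧ Red B (F A)) (A : Set ℕ) :
    Red (F A) A ∧ Red A (F A) := by
  choose G hG1 hG2 using honto
  choose S hS using exists_set
  have hFG : ∀ B, TEq (rs (F (G B))) (rs B) := fun B => ⟨rs_le.2 (hG1 B), rs_le.2 (hG2 B)⟩
  have hFr : ∀ A B : Set ℕ, TLE (rs A) (rs B) ↔ TLE (rs (F A)) (rs (F B)) := fun A B => by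
    rw [rs_le, rs_le]
    exact hF A B
  have hSF : ∀ a b : R, TLE a b ↔ TLE (rs (S a)) (rs (S b)) := fun a b =>
    ⟨fun h => ((hS a).1.trans h).trans (hS b).2, fun h => ((hS a).2.trans h).trans (hS b).1⟩
  have hGr : ∀ B B' : Set ℕ, TLE (rs B) (rs B') ↔ TLE (rs (G B)) (rs (G B')) := fun B B' => by
    rw [hFr (G B) (G B')]
    exact ⟨fun h => ((hFG B).1.trans h).trans (hFG B').2,
      fun h => ((hFG B).2.trans h).trans (hFG B').1⟩
  have key : ∀ {a b : R}, TEq a b → TEq b a := fun h => ⟨h.2, h.1⟩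
  have hGF : ∀ A, TEq (rs (G (F A))) (rs A) := fun A =>
    ⟨(hFr _ _).2 (hFG (F A)).1, (hFr _ _).2 (hFG (F A)).2⟩
  have hGc : ∀ {B B' : Set ℕ}, TEq (rs B) (rs B') → TEq (rs (G B)) (rs (G B')) := fun h =>
    ⟨(hGr _ _).1 h.1, (hGr _ _).1 h.2⟩
  have hFc : ∀ {B B' : Set ℕ}, TEq (rs B) (rs B') → TEq (rs (F B)) (rs (F B')) := fun h =>
    ⟨(hFr _ _).1 h.1, (hFr _ _).1 h.2⟩
  have tr : ∀ {a b c : R}, TEq a b → TEq b c → TEq a c := fun h h' =>
    ⟨h.1.trans h'.1, h'.2.trans h.2⟩
  let π : Auto :=
    { f := fun a => rs (F (S a))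
      g := fun a => rs (G (S a))
      hf := fun a b => (hSF a b).trans (hFr _ _)
      hg := fun a b => (hSF a b).trans (hGr _ _)
      fg := fun a => tr (hFc (hS (rs (G (S a))))) (tr (hFG (S a)) (hS a))
      gf := fun a => tr (hGc (hS (rs (F (S a))))) (tr (hGF (S a)) (hS a)) }
  have h1 : TEq (rs (F (S (rs A)))) (rs A) := rigid π (rs A)
  have h2 : TEq (rs (F A)) (rs A) := tr (key (hFc (hS (rs A)))) h1
  exact ⟨rs_le.1 h2.1, rs_le.1 h2.2⟩

end Vale.Agent.Results.P327.SetMaps
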